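import Vale.Agent.P237.Petty.Cor.Low20.Chunks
import Vale.Agent.P237.Petty.Cor.Low20.H3a.Data

/-!
# P237: kernel checks of boxes 2 to 3
-/

namespace Vale.Agent.P237.Petty.Cor.Low20.H3a

def check2_0 : cutAll dat.Z1
    ((boxAll dat box2).take 29)
  [.leaf, .leaf, .leaf, .leaf, .leaf, .leaf, .leaf, .leaf, .leaf, .leaf, (.split 0 .leaf (.split 1
    (.split 0 .leaf .leaf) (.split 0 .leaf .leaf))), .leaf, .leaf, .leaf, .leaf, .leaf, .leaf,
    (.split 2 .leaf (.split 2 .leaf (.split 2 .leaf (.split 2 .leaf (.split 2 .leaf (.split 2 .leaf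
    .leaf)))))), .leaf, .leaf, .leaf, .leaf, .leaf, .leaf, .leaf, .leaf, (.split 2 .leaf (.split 2
    .leaf (.split 2 .leaf (.split 2 .leaf (.split 2 .leaf (.split 2 .leaf .leaf)))))), .leaf, .leaf] = true := by
  decide +kernel

def check2_1 : cutAll dat.Z1
    ((boxAll dat box2).drop 29)
  [.leaf, .leaf, .leaf, (.split 0 .leaf (.split 1 .leaf (.split 0 .leaf .leaf))), .leaf, (.split 0
    (.split 1 (.split 0 .leaf .leaf) (.split 0 .leaf .leaf)) .leaf), .leaf, .leaf, .leaf, .leaf,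
    .leaf] = true := by
  decide +kernel

theorem sound2 : BoxSound dat box2 ∧ TopSound dat box2 :=
  bound_of_boxAll
    (cutAll_of_take 29 check2_0
      check2_1)

def check3_0 : cutAll dat.Z1
    ((boxAll dat box3).take 32)
  [.leaf, .leaf, .leaf, .leaf, .leaf, .leaf, .leaf, .leaf, .leaf, .leaf, (.split 0 .leaf (.split 1
    (.split 0 .leaf .leaf) .leaf)), .leaf, .leaf, .leaf, .leaf, .leaf, .leaf, (.split 2 .leaf
    (.split 2 .leaf (.split 2 .leaf (.split 2 .leaf (.split 2 .leaf .leaf))))), .leaf, .leaf, .leaf,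
    .leaf, .leaf, .leaf, .leaf, .leaf, (.split 2 .leaf (.split 2 .leaf (.split 2 .leaf (.split 2
    .leaf (.split 2 .leaf .leaf))))), .leaf, .leaf, .leaf, .leaf, .leaf] = true := by
  decide +kernel

def check3_1 : cutAll dat.Z1
    ((boxAll dat box3).drop 32)
  [(.split 0 .leaf .leaf), .leaf, (.split 0 .leaf .leaf), .leaf, .leaf, .leaf, .leaf, .leaf] = true := by
  decide +kernel

theorem sound3 : BoxSound dat box3 ∧ TopSound dat box3 :=
  bound_of_boxAll
    (cutAll_of_take 32 check3_0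
      check3_1)

end Vale.Agent.P237.Petty.Cor.Low20.H3a
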