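import Vale.Agent.P237.Petty.Cor.Low20.Chunks
import Vale.Agent.P237.Petty.Cor.Low20.H3a.Data

/-!
# P237: kernel checks of boxes 23 to 23
-/

namespace Vale.Agent.P237.Petty.Cor.Low20.H3a

def check23_0 : cutAll dat.Z1
    ((boxAll dat box23).take 11)
  [.leaf, .leaf, .leaf, .leaf, .leaf, .leaf, .leaf, (.split 0 (.split 1 .leaf (.split 0 .leaf
    (.split 1 .leaf (.split 0 (.split 1 .leaf .out) .out)))) (.split 1 (.split 0 .leaf (.split 1
    .leaf (.split 0 .leaf (.split 1 .leaf .out)))) (.split 0 (.split 1 (.split 0 .leaf .out) .out)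
    .out))), .leaf, (.split 0 (.split 1 .leaf (.split 0 (.split 1 .leaf (.split 0 .leaf (.split 1
    .leaf (.split 0 .leaf .out)))) (.split 1 (.split 0 .leaf (.split 1 .leaf (.split 0 .leaf (.split
    1 .leaf .out)))) (.split 0 (.split 1 (.split 0 .leaf .out) .out) .out)))) (.split 1 (.split 0
    (.split 1 .leaf (.split 0 .leaf (.split 1 .leaf (.split 0 .leaf (.split 1 .leaf .out)))))
    (.split 1 .leaf (.split 0 (.split 1 .leaf (.split 0 (.split 1 (.split 0 .leaf .out) .out) .out))
    (.split 1 (.split 0 (.split 1 .leaf .out) .out) .out)))) (.split 0 (.split 1 (.split 0 (.split 1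
    (.split 0 .leaf (.split 1 .leaf .out)) .out) .out) .out) .out))), .leaf] = true := by
  decide +kernel

def check23_1 : cutAll dat.Z1
    (((boxAll dat box23).drop 11).take 6)
  [(.split 0 (.split 2 (.split 1 (.split 0 .leaf .leaf) .leaf) (.split 1 (.split 0 .leaf .leaf)
    .leaf)) .leaf), (.split 0 (.split 2 (.split 1 (.split 0 .leaf .leaf) .leaf) (.split 1 (.split 0
    .leaf .leaf) .leaf)) .leaf), (.split 0 (.split 2 (.split 1 (.split 0 .leaf .leaf) .leaf) (.split
    1 (.split 0 .leaf .leaf) .leaf)) .leaf), (.split 0 (.split 2 (.split 1 (.split 0 .leaf .leaf)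
    .leaf) (.split 1 (.split 0 .leaf .leaf) .leaf)) .leaf), (.split 0 (.split 2 (.split 1 (.split 0
    .leaf .leaf) .leaf) (.split 1 (.split 0 .leaf .leaf) .leaf)) .leaf), (.split 0 (.split 2 (.split
    1 (.split 0 .leaf .leaf) .leaf) (.split 1 (.split 0 .leaf .leaf) .leaf)) .leaf)] = true := by
  decide +kernel

def check23_2 : cutAll dat.Z1
    ((((boxAll dat box23).drop 11).drop 6).take 6)
  [(.split 0 (.split 2 (.split 1 (.split 0 .leaf .leaf) .leaf) (.split 1 (.split 0 .leaf .leaf)
    .leaf)) .leaf), (.split 0 (.split 2 (.split 1 (.split 0 .leaf .leaf) .leaf) (.split 1 (.split 0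
    .leaf .leaf) .leaf)) .leaf), (.split 0 (.split 2 (.split 1 (.split 0 .leaf .leaf) .leaf) (.split
    1 (.split 0 .leaf .leaf) .leaf)) .leaf), (.split 0 (.split 2 (.split 1 (.split 0 .leaf .leaf)
    .leaf) (.split 1 (.split 0 .leaf .leaf) .leaf)) .leaf), (.split 0 (.split 2 (.split 1 (.split 0
    .leaf .leaf) .leaf) (.split 1 (.split 0 .leaf .leaf) .leaf)) .leaf), (.split 0 (.split 2 (.split
    1 (.split 0 .leaf .leaf) .leaf) (.split 1 (.split 0 .leaf .leaf) .leaf)) .leaf)] = true := by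
  decide +kernel

def check23_3 : cutAll dat.Z1
    (((((boxAll dat box23).drop 11).drop 6).drop 6).take 7)
  [(.split 0 (.split 2 (.split 1 (.split 0 .leaf .leaf) .leaf) (.split 1 (.split 0 .leaf .leaf)
    .leaf)) .leaf), (.split 0 (.split 2 (.split 1 (.split 0 .leaf .leaf) .leaf) (.split 1 (.split 0
    .leaf .leaf) .leaf)) .leaf), (.split 0 (.split 2 (.split 1 (.split 0 .leaf .leaf) .leaf) (.split
    1 (.split 0 .leaf .leaf) .leaf)) .leaf), (.split 0 (.split 2 (.split 1 (.split 0 .leaf .leaf)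
    .leaf) (.split 1 (.split 0 .leaf .leaf) .leaf)) .leaf), (.split 0 (.split 2 (.split 1 (.split 0
    .leaf .leaf) .leaf) (.split 1 (.split 0 .leaf .leaf) .leaf)) .leaf), (.split 0 (.split 2 (.split
    1 (.split 0 .leaf .leaf) .leaf) (.split 1 (.split 0 .leaf .leaf) .leaf)) .leaf), (.split 0 .leaf
    (.split 1 .leaf (.split 0 .leaf .out)))] = true := by
  decide +kernel

def check23_4 : cutAll dat.Z1
    (((((boxAll dat box23).drop 11).drop 6).drop 6).drop 7)
  [.leaf, (.split 0 .leaf .leaf), .leaf, .leaf, .leaf, .leaf, .leaf, .leaf] = true := by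
  decide +kernel

theorem sound23 : BoxSound dat box23 ∧ TopSound dat box23 :=
  bound_of_boxAll
    (cutAll_of_take 11 check23_0
      (cutAll_of_take 6 check23_1
      (cutAll_of_take 6 check23_2
      (cutAll_of_take 7 check23_3
      check23_4))))

end Vale.Agent.P237.Petty.Cor.Low20.H3a
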