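import Vale.Agent.P237.Petty.Cor.Low20.Chunks
import Vale.Agent.P237.Petty.Cor.Low20.H3a.Data

/-!
# P237: kernel checks of boxes 24 to 24
-/

namespace Vale.Agent.P237.Petty.Cor.Low20.H3a

def check24_0 : cutAll dat.Z1
    ((boxAll dat box24).take 17)
  [.leaf, .leaf, .leaf, .leaf, .leaf, .leaf, .leaf, (.split 0 (.split 1 (.split 0 .leaf (.split 1
    (.split 0 .leaf .out) .out)) (.split 0 .leaf .out)) .out), .leaf, (.split 0 (.split 1 (.split 0
    (.split 1 .leaf (.split 0 .leaf (.split 1 .leaf (.split 0 .leaf .out)))) (.split 1 (.split 0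
    (.split 1 (.split 0 .leaf .out) .out) .out) .out)) (.split 0 (.split 1 (.split 0 .leaf (.split 1
    (.split 0 .leaf .out) .out)) (.split 0 .leaf .out)) .out)) .out), .leaf, (.split 2 (.split 2
    (.split 0 .leaf .out) (.split 0 .leaf .out)) (.split 2 (.split 0 .leaf .out) (.split 0 .leaf
    .out))), (.split 2 (.split 2 (.split 0 .leaf .out) (.split 0 .leaf .out)) (.split 2 (.split 0
    .leaf .out) (.split 0 .leaf .out))), (.split 2 (.split 2 (.split 0 .leaf .out) (.split 0 .leaf
    .out)) (.split 2 (.split 0 .leaf .out) (.split 0 .leaf .out))), (.split 2 (.split 2 (.split 0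
    .leaf .out) (.split 0 .leaf .out)) (.split 2 (.split 0 .leaf .out) (.split 0 .leaf .out))),
    (.split 2 (.split 2 (.split 0 .leaf .out) (.split 0 .leaf .out)) (.split 2 (.split 0 .leaf .out)
    (.split 0 .leaf .out))), (.split 2 (.split 2 (.split 0 .leaf .out) (.split 0 .leaf .out))
    (.split 2 (.split 0 .leaf .out) (.split 0 .leaf .out)))] = true := by
  decide +kernel

def check24_1 : cutAll dat.Z1
    (((boxAll dat box24).drop 17).take 11)
  [(.split 2 (.split 2 (.split 0 .leaf .out) (.split 0 .leaf .out)) (.split 2 (.split 0 .leaf .out)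
    (.split 0 .leaf .out))), (.split 2 (.split 2 (.split 0 .leaf .out) (.split 0 .leaf .out))
    (.split 2 (.split 0 .leaf .out) (.split 0 .leaf .out))), (.split 2 (.split 2 (.split 0 .leaf
    .out) (.split 0 .leaf .out)) (.split 2 (.split 0 .leaf .out) (.split 0 .leaf .out))), (.split 2
    (.split 2 (.split 0 .leaf .out) (.split 0 .leaf .out)) (.split 2 (.split 0 .leaf .out) (.split 0
    .leaf .out))), (.split 2 (.split 2 (.split 0 .leaf .out) (.split 0 .leaf .out)) (.split 2
    (.split 0 .leaf .out) (.split 0 .leaf .out))), (.split 2 (.split 2 (.split 0 .leaf .out) (.split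
    0 .leaf .out)) (.split 2 (.split 0 .leaf .out) (.split 0 .leaf .out))), (.split 2 (.split 2
    (.split 0 .leaf .out) (.split 0 .leaf .out)) (.split 2 (.split 0 .leaf .out) (.split 0 .leaf
    .out))), (.split 2 (.split 2 (.split 0 .leaf .out) (.split 0 .leaf .out)) (.split 2 (.split 0
    .leaf .out) (.split 0 .leaf .out))), (.split 2 (.split 2 (.split 0 .leaf .out) (.split 0 .leaf
    .out)) (.split 2 (.split 0 .leaf .out) (.split 0 .leaf .out))), (.split 2 (.split 2 (.split 0
    .leaf .out) (.split 0 .leaf .out)) (.split 2 (.split 0 .leaf .out) (.split 0 .leaf .out))),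
    (.split 2 (.split 2 (.split 0 .leaf .out) (.split 0 .leaf .out)) (.split 2 (.split 0 .leaf .out)
    (.split 0 .leaf .out)))] = true := by
  decide +kernel

def check24_2 : cutAll dat.Z1
    (((boxAll dat box24).drop 17).drop 11)
  [(.split 2 (.split 2 (.split 0 .leaf .out) (.split 0 .leaf .out)) (.split 2 (.split 0 .leaf .out)
    (.split 0 .leaf .out))), .leaf, .leaf, (.split 0 .leaf .out), .leaf, .leaf, .leaf, .leaf, .leaf,
    .leaf] = true := by
  decide +kernel

theorem sound24 : BoxSound dat box24 ∧ TopSound dat box24 :=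
  bound_of_boxAll
    (cutAll_of_take 17 check24_0
      (cutAll_of_take 11 check24_1
      check24_2))

end Vale.Agent.P237.Petty.Cor.Low20.H3a
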