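import Vale.Agent.P237.Petty.Cor.Low20.Chunks
import Vale.Agent.P237.Petty.Cor.Low20.H3a.Data

/-!
# P237: kernel checks of boxes 4 to 5
-/

namespace Vale.Agent.P237.Petty.Cor.Low20.H3a

def check4_0 : cutAll dat.Z1
    ((boxAll dat box4).take 26)
  [(.split 0 (.split 0 (.split 1 (.split 0 (.split 0 .leaf .leaf) .leaf) (.split 0 (.split 0 .leaf
    .leaf) .leaf)) .leaf) .leaf), .leaf, .leaf, .leaf, .leaf, .leaf, .leaf, .leaf, .leaf, .leaf,
    (.split 0 .leaf (.split 1 (.split 0 .leaf (.split 1 (.split 0 .leaf .leaf) .leaf)) .leaf)),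
    .leaf, .leaf, .leaf, .leaf, .leaf, .leaf, (.split 2 .leaf (.split 2 .leaf (.split 2 .leaf
    (.split 2 .leaf (.split 2 .leaf (.split 2 .leaf .leaf)))))), .leaf, .leaf, .leaf, .leaf, .leaf,
    .leaf, .leaf, .leaf] = true := by
  decide +kernel

def check4_1 : cutAll dat.Z1
    ((boxAll dat box4).drop 26)
  [(.split 2 .leaf (.split 2 .leaf (.split 2 .leaf (.split 2 .leaf (.split 2 .leaf (.split 2 .leaf
    (.split 2 .leaf .leaf))))))), .leaf, .leaf, .leaf, .leaf, .leaf, .leaf, .leaf, (.split 0 .leaf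
    .leaf), .leaf, .leaf, .leaf, .leaf, .leaf] = true := by
  decide +kernel

theorem sound4 : BoxSound dat box4 ∧ TopSound dat box4 :=
  bound_of_boxAll
    (cutAll_of_take 26 check4_0
      check4_1)

def check5_0 : cutAll dat.Z1
    ((boxAll dat box5).take 27)
  [.leaf, .leaf, .leaf, .leaf, .leaf, .leaf, .leaf, .leaf, .leaf, .leaf, (.split 0 (.split 0 .leaf
    .leaf) (.split 0 (.split 0 .leaf (.split 0 .leaf (.split 0 .leaf .leaf))) .leaf)), .leaf, .leaf,
    .leaf, .leaf, .leaf, .leaf, (.split 2 .leaf (.split 2 .leaf (.split 2 .leaf (.split 2 .leaf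
    (.split 2 .leaf (.split 2 .leaf .leaf)))))), .leaf, .leaf, .leaf, .leaf, .leaf, .leaf, .leaf,
    .leaf, (.split 2 .leaf (.split 2 .leaf (.split 2 .leaf (.split 2 .leaf (.split 2 .leaf (.split 2
    .leaf .leaf))))))] = true := by
  decide +kernel

def check5_1 : cutAll dat.Z1
    ((boxAll dat box5).drop 27)
  [.leaf, .leaf, .leaf, .leaf, .leaf, .leaf, .leaf, .leaf, .leaf, .leaf, .leaf, .leaf, .leaf] = true := by
  decide +kernel

theorem sound5 : BoxSound dat box5 ∧ TopSound dat box5 :=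
  bound_of_boxAll
    (cutAll_of_take 27 check5_0
      check5_1)

end Vale.Agent.P237.Petty.Cor.Low20.H3a
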