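import Vale.Agent.P237.Petty.Cor.Low20.Chunks
import Vale.Agent.P237.Petty.Cor.Low20.H3a.Data

/-!
# P237: kernel checks of boxes 15 to 16
-/

namespace Vale.Agent.P237.Petty.Cor.Low20.H3a

def check15_0 : cutAll dat.Z1
    ((boxAll dat box15).take 27)
  [.leaf, .leaf, .leaf, .leaf, .leaf, .leaf, .leaf, .leaf, .leaf, .leaf, .leaf, .leaf, .leaf, .leaf,
    .leaf, .leaf, .leaf, (.split 2 .leaf (.split 2 .leaf (.split 0 (.split 2 .leaf .leaf) .leaf))),
    (.split 0 (.split 2 (.split 1 (.split 0 .leaf (.split 2 .leaf .leaf)) .leaf) (.split 1 .leaf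
    .leaf)) (.split 2 (.split 1 .leaf .leaf) (.split 1 .leaf .leaf))), .leaf, .leaf, .leaf, .leaf,
    .leaf, .leaf, .leaf, (.split 2 .leaf (.split 2 .leaf (.split 0 (.split 2 .leaf .leaf) .leaf)))] = true := by
  decide +kernel

def check15_1 : cutAll dat.Z1
    ((boxAll dat box15).drop 27)
  [(.split 0 (.split 2 (.split 1 (.split 0 .leaf .leaf) .leaf) (.split 1 .leaf .leaf)) (.split 2
    (.split 1 .leaf .leaf) (.split 1 .leaf .leaf))), .leaf, .leaf, .leaf, (.split 0 .leaf .leaf),
    .leaf, .leaf, .leaf, .leaf, .leaf, .leaf] = true := by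
  decide +kernel

theorem sound15 : BoxSound dat box15 ∧ TopSound dat box15 :=
  bound_of_boxAll
    (cutAll_of_take 27 check15_0
      check15_1)

def check16_0 : cutAll dat.Z1
    ((boxAll dat box16).take 19)
  [.leaf, .leaf, .leaf, .leaf, .leaf, (.split 0 .leaf (.split 1 .leaf .leaf)), .leaf, .leaf, .leaf,
    .leaf, .leaf, .leaf, .leaf, .leaf, .leaf, .leaf, (.split 2 .leaf .leaf), (.split 2 (.split 0
    .leaf (.split 2 .leaf .leaf)) (.split 0 (.split 2 (.split 0 .leaf .leaf) (.split 0 .leaf .leaf))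
    .leaf)), (.split 0 (.split 2 (.split 1 (.split 0 .leaf .leaf) .leaf) (.split 1 (.split 0 (.split
    2 (.split 1 (.split 0 .leaf .leaf) (.split 0 .leaf .leaf)) (.split 1 (.split 0 .leaf .leaf)
    (.split 0 .leaf .leaf))) .leaf) .leaf)) .leaf)] = true := by
  decide +kernel

def check16_1 : cutAll dat.Z1
    (((boxAll dat box16).drop 19).take 9)
  [(.split 0 (.split 2 .leaf (.split 1 .leaf (.split 0 (.split 2 .leaf (.split 1 (.split 0 .leaf
    .leaf) .leaf)) .leaf))) .leaf), .leaf, .leaf, .leaf, .leaf, .leaf, (.split 2 .leaf .leaf),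
    (.split 2 (.split 0 .leaf (.split 2 .leaf .leaf)) (.split 0 (.split 2 (.split 0 (.split 2 .leaf
    .leaf) .leaf) (.split 0 .leaf .leaf)) .leaf)), (.split 0 (.split 2 (.split 1 (.split 0 (.split 2
    .leaf (.split 1 .leaf (.split 0 .leaf .leaf))) .leaf) .leaf) (.split 1 (.split 0 (.split 2
    (.split 1 (.split 0 .leaf .leaf) (.split 0 .leaf .leaf)) (.split 1 (.split 0 .leaf .leaf)
    (.split 0 .leaf .leaf))) .leaf) .leaf)) .leaf)] = true := by
  decide +kernel

def check16_2 : cutAll dat.Z1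
    (((boxAll dat box16).drop 19).drop 9)
  [(.split 0 (.split 2 .leaf (.split 2 .leaf (.split 1 .leaf .leaf))) .leaf), .leaf, .leaf, (.split
    0 .leaf .leaf), .leaf, .leaf, .leaf, .leaf, .leaf, .leaf] = true := by
  decide +kernel

theorem sound16 : BoxSound dat box16 ∧ TopSound dat box16 :=
  bound_of_boxAll
    (cutAll_of_take 19 check16_0
      (cutAll_of_take 9 check16_1
      check16_2))

end Vale.Agent.P237.Petty.Cor.Low20.H3a
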