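import Vale.Agent.P237.Petty.Cor.Low20.Chunks
import Vale.Agent.P237.Petty.Cor.Low20.H3a.Data

/-!
# P237: kernel checks of boxes 17 to 18
-/

namespace Vale.Agent.P237.Petty.Cor.Low20.H3a

def check17_0 : cutAll dat.Z1
    ((boxAll dat box17).take 30)
  [.leaf, .leaf, .leaf, .leaf, .leaf, .leaf, .leaf, .leaf, .leaf, .leaf, .leaf, .leaf, .leaf, .leaf,
    .leaf, .leaf, (.split 2 .leaf (.split 2 .leaf .leaf)), (.split 2 .leaf .leaf), .leaf, (.split 0
    (.split 2 .leaf (.split 2 .leaf (.split 1 .leaf .leaf))) (.split 2 .leaf (.split 2 .leaf (.split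
    1 .leaf .leaf)))), .leaf, .leaf, .leaf, .leaf, .leaf, (.split 2 .leaf (.split 2 (.split 0 .leaf
    .leaf) .leaf)), (.split 2 .leaf (.split 2 .leaf .leaf)), .leaf, .leaf, .leaf] = true := by
  decide +kernel

def check17_1 : cutAll dat.Z1
    ((boxAll dat box17).drop 30)
  [.leaf, (.split 0 .leaf .leaf), .leaf, .leaf, .leaf, .leaf, .leaf, .leaf] = true := by
  decide +kernel

theorem sound17 : BoxSound dat box17 ∧ TopSound dat box17 :=
  bound_of_boxAll
    (cutAll_of_take 30 check17_0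
      check17_1)

def check18_0 : cutAll dat.Z1
    (boxAll dat box18)
  [.leaf, .leaf, .leaf, .leaf, .leaf, .leaf, .leaf, .leaf, .leaf, .leaf, .leaf, .leaf, .leaf, .leaf,
    .leaf, .leaf, (.split 2 .leaf .leaf), .leaf, .leaf, (.split 1 (.split 2 .leaf (.split 1 .leaf
    .leaf)) .leaf), .leaf, .leaf, .leaf, .leaf, .leaf, (.split 2 .leaf .leaf), (.split 2 .leaf
    .leaf), .leaf, .leaf, .leaf, .leaf, (.split 0 .leaf .leaf), .leaf, .leaf, .leaf, .leaf, .leaf,
    .leaf] = true := by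
  decide +kernel

theorem sound18 : BoxSound dat box18 ∧ TopSound dat box18 :=
  bound_of_boxAll
    check18_0

end Vale.Agent.P237.Petty.Cor.Low20.H3a
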