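import Vale.Agent.P237.Petty.Cor.Low20.Chunks
import Vale.Agent.P237.Petty.Cor.Low20.H3a.Data

/-!
# P237: kernel checks of boxes 19 to 19
-/

namespace Vale.Agent.P237.Petty.Cor.Low20.H3a

def check19_0 : cutAll dat.Z1
    ((boxAll dat box19).take 8)
  [.leaf, .leaf, .leaf, .leaf, .leaf, (.split 0 (.split 1 .leaf .leaf) (.split 1 .leaf (.split 0
    .leaf .leaf))), .leaf, (.split 1 .leaf (.split 0 (.split 1 .leaf (.split 1 .leaf (.split 0
    (.split 1 .leaf (.split 1 (.split 0 .leaf (.split 1 .leaf (.split 1 (.split 0 .leaf .out)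
    .out))) (.split 0 (.split 1 .leaf (.split 1 .leaf (.split 0 .leaf .out))) .out))) (.split 1
    (.split 1 (.split 0 .leaf (.split 1 (.split 1 (.split 0 .leaf .out) .out) .out)) (.split 0
    (.split 1 (.split 1 .leaf (.split 0 .leaf .out)) .out) .out)) .out)))) (.split 1 (.split 1 .leaf
    (.split 0 .leaf (.split 1 .leaf (.split 1 .leaf (.split 0 .leaf (.split 1 .leaf (.split 1 .leaf
    (.split 0 .leaf .out)))))))) (.split 1 (.split 0 (.split 1 (.split 1 .leaf (.split 0 .leaf
    (.split 1 .leaf (.split 1 .leaf (.split 0 .leaf .out))))) (.split 1 (.split 0 (.split 1 .leaf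
    (.split 1 .leaf (.split 0 .leaf .out))) .out) (.split 0 (.split 1 (.split 1 (.split 0 .leaf
    .out) .out) .out) .out))) (.split 1 (.split 1 (.split 0 (.split 1 .leaf (.split 1 .leaf (.split
    0 .leaf .out))) .out) .out) .out)) .out))))] = true := by
  decide +kernel

def check19_1 : cutAll dat.Z1
    (((boxAll dat box19).drop 8).take 3)
  [.leaf, (.split 0 (.split 1 .leaf (.split 0 .leaf (.split 1 .leaf (.split 0 (.split 1 .leaf
    (.split 0 .leaf (.split 1 .leaf .out))) (.split 1 .leaf (.split 0 (.split 1 .leaf .out)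
    .out)))))) (.split 1 .leaf (.split 0 (.split 1 .leaf (.split 0 (.split 1 (.split 0 .leaf (.split
    1 .leaf (.split 0 .leaf (.split 1 .leaf .out)))) .out) (.split 1 (.split 0 (.split 1 .leaf .out)
    (.split 1 .leaf .out)) .out))) (.split 1 (.split 0 .leaf (.split 1 .leaf (.split 0 (.split 1
    .leaf (.split 0 .leaf (.split 1 .leaf (.split 0 (.split 1 .leaf (.split 0 (.split 1 .leaf .out)
    (.split 1 .leaf .out))) (.split 1 .leaf .out))))) (.split 1 .leaf (.split 0 (.split 1 .leaf
    (.split 0 (.split 1 .leaf .out) (.split 1 (.split 0 (.split 1 .leaf .out) (.split 1 .leaf .out))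
    .out))) (.split 1 .leaf (.split 0 (.split 1 (.split 0 (.split 1 .leaf .out) (.split 1 (.split 0
    (.split 1 .leaf .out) (.split 1 .leaf .out)) .out)) .out) (.split 1 (.split 0 (.split 1 (.split
    0 (.split 1 .leaf .out) .out) .out) .out) .out)))))))) (.split 0 (.split 1 (.split 0 (.split 1
    (.split 0 (.split 1 .leaf .out) (.split 1 .leaf .out)) .out) (.split 1 (.split 0 (.split 1
    (.split 0 .leaf (.split 1 .leaf .out)) .out) (.split 1 (.split 0 (.split 1 .leaf .out) .out)
    .out)) .out)) .out) .out))))), (.split 0 (.split 1 .leaf .leaf) .leaf)] = true := by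
  decide +kernel

def check19_2 : cutAll dat.Z1
    ((((boxAll dat box19).drop 8).drop 3).take 9)
  [(.split 0 (.split 2 .leaf .leaf) (.split 2 (.split 1 .leaf (.split 0 (.split 2 .leaf (.split 1
    .leaf (.split 0 (.split 2 .leaf (.split 1 .leaf .out)) (.split 2 .leaf (.split 1 .leaf .out)))))
    (.split 2 .leaf (.split 1 .leaf (.split 0 (.split 2 (.split 1 .leaf .out) (.split 1 .leaf .out))
    .out))))) (.split 1 .leaf (.split 0 (.split 2 (.split 1 .leaf (.split 0 (.split 2 (.split 1
    .leaf .out) .leaf) (.split 2 (.split 1 .leaf .out) (.split 1 .leaf .out)))) .leaf) (.split 2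
    (.split 1 .leaf (.split 0 (.split 2 (.split 1 .leaf .out) (.split 1 .leaf .out)) .out))
    .leaf))))), .leaf, .leaf, .leaf, (.split 2 .leaf .leaf), .leaf, .leaf, .leaf, (.split 1 (.split
    2 .leaf (.split 1 (.split 2 .leaf (.split 1 .leaf .leaf)) .leaf)) .leaf)] = true := by
  decide +kernel

def check19_3 : cutAll dat.Z1
    (((((boxAll dat box19).drop 8).drop 3).drop 9).take 11)
  [(.split 0 (.split 2 .leaf .leaf) (.split 2 (.split 1 .leaf (.split 0 (.split 2 .leaf (.split 1
    .leaf (.split 0 (.split 2 .leaf (.split 1 .leaf .out)) (.split 2 .leaf (.split 1 .leaf .out)))))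
    (.split 2 .leaf (.split 1 .leaf (.split 0 (.split 2 (.split 1 .leaf .out) (.split 1 .leaf .out))
    .out))))) (.split 1 .leaf (.split 0 (.split 2 (.split 1 .leaf (.split 0 (.split 2 (.split 1
    .leaf .out) .leaf) (.split 2 (.split 1 .leaf .out) (.split 1 .leaf .out)))) .leaf) (.split 2
    (.split 1 .leaf (.split 0 (.split 2 (.split 1 .leaf .out) (.split 1 .leaf .out)) .out))
    .leaf))))), .leaf, .leaf, .leaf, (.split 2 (.split 2 .leaf (.split 0 .leaf .leaf)) (.split 2
    (.split 0 .leaf .leaf) .leaf)), .leaf, .leaf, .leaf, .leaf, (.split 1 .leaf (.split 0 (.split 1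
    .leaf (.split 1 .leaf (.split 0 .leaf (.split 1 .leaf .out)))) (.split 1 .leaf (.split 1 .leaf
    .out)))), .leaf] = true := by
  decide +kernel

def check19_4 : cutAll dat.Z1
    (((((boxAll dat box19).drop 8).drop 3).drop 9).drop 11)
  [(.split 0 .leaf .leaf), .leaf, .leaf, .leaf, .leaf, .leaf, .leaf] = true := by
  decide +kernel

theorem sound19 : BoxSound dat box19 ∧ TopSound dat box19 :=
  bound_of_boxAll
    (cutAll_of_take 8 check19_0
      (cutAll_of_take 3 check19_1
      (cutAll_of_take 9 check19_2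
      (cutAll_of_take 11 check19_3
      check19_4))))

end Vale.Agent.P237.Petty.Cor.Low20.H3a
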