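import Vale.Agent.P237.Petty.Cor.Low20.Chunks
import Vale.Agent.P237.Petty.Cor.Low20.H3a.Data

/-!
# P237: kernel checks of boxes 0 to 1
-/

namespace Vale.Agent.P237.Petty.Cor.Low20.H3a

def check0_0 : cutAll dat.Z1
    ((boxAll dat box0).take 29)
  [.leaf, .leaf, .leaf, .leaf, .leaf, .leaf, .leaf, .leaf, (.split 0 .leaf .leaf), .leaf, (.split 0
    .leaf .leaf), .leaf, .leaf, .leaf, .leaf, .leaf, .leaf, (.split 2 .leaf (.split 2 .leaf (.split
    0 .leaf (.split 2 .leaf (.split 2 .leaf (.split 0 .leaf (.split 2 .leaf .leaf))))))), .leaf,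
    .leaf, .leaf, .leaf, .leaf, .leaf, .leaf, .leaf, (.split 2 .leaf (.split 2 .leaf (.split 0 .leaf
    (.split 2 .leaf (.split 2 .leaf (.split 0 .leaf (.split 2 .leaf .leaf))))))), .leaf, .leaf] = true := by
  decide +kernel

def check0_1 : cutAll dat.Z1
    ((boxAll dat box0).drop 29)
  [.leaf, .leaf, .leaf, .leaf, .leaf, (.split 0 (.split 0 (.split 0 .leaf (.split 0 .leaf (.split 0
    .leaf (.split 0 .leaf (.split 0 .leaf .leaf))))) .leaf) .leaf), .leaf, .leaf, .leaf, .leaf,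
    .leaf] = true := by
  decide +kernel

theorem sound0 : BoxSound dat box0 ∧ TopSound dat box0 :=
  bound_of_boxAll
    (cutAll_of_take 29 check0_0
      check0_1)

def check1_0 : cutAll dat.Z1
    ((boxAll dat box1).take 32)
  [.leaf, .leaf, .leaf, .leaf, .leaf, .leaf, .leaf, .leaf, .leaf, .leaf, (.split 0 .leaf .leaf),
    .leaf, .leaf, .leaf, .leaf, .leaf, .leaf, (.split 2 .leaf (.split 2 .leaf (.split 2 .leaf
    (.split 2 .leaf (.split 2 .leaf (.split 2 .leaf .leaf)))))), .leaf, .leaf, .leaf, .leaf, .leaf,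
    .leaf, .leaf, .leaf, (.split 2 .leaf (.split 2 .leaf (.split 2 .leaf (.split 2 .leaf (.split 2
    .leaf (.split 2 .leaf .leaf)))))), .leaf, .leaf, .leaf, .leaf, .leaf] = true := by
  decide +kernel

def check1_1 : cutAll dat.Z1
    ((boxAll dat box1).drop 32)
  [(.split 0 (.split 1 (.split 0 .leaf .leaf) (.split 0 .leaf .leaf)) (.split 1 (.split 0 .leaf
    .leaf) (.split 0 .leaf .leaf))), .leaf, (.split 0 (.split 0 (.split 1 (.split 0 .leaf .leaf)
    (.split 0 .leaf .leaf)) .leaf) .leaf), .leaf, .leaf, .leaf, .leaf, .leaf] = true := by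
  decide +kernel

theorem sound1 : BoxSound dat box1 ∧ TopSound dat box1 :=
  bound_of_boxAll
    (cutAll_of_take 32 check1_0
      check1_1)

end Vale.Agent.P237.Petty.Cor.Low20.H3a
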